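import Vale.Agent.P322.Main

namespace Vale.Agent.Results.P322.Full
open Vale.Agent.P322

/-- The Courtade-Kumar conjecture: for every `n`, every Boolean function `f` on the cube of signs
and every crossover probability `ε ∈ [0, 1/2]`, `I(f(X); Y) ≤ 1 - h₂(ε)` where `Y = X Z`. -/
theorem result (n : ℕ) (f : (Fin n → Units ℤ) → Units ℤ) (ε : ℝ) (h0 : 0 ≤ ε) (h1 : ε ≤ 1 / 2) :
    mutualInfo (law n ε) (fun ω => f ω.1) (fun ω => ω.1 * ω.2) ≤ 1 - h2 ε :=
  ck_main n f ε h0 h1

end Vale.Agent.Results.P322.Full
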